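import Crest.Agent.X262.Emb11.Defs
import Crest.Agent.X262.Tree87.Prj
import Crest.Agent.X262.Node22.Alg

/-!
Row 262, EMB, tree part (helper87): `PropStmt`, `BndStmt`, `ExactStmt`, `exists_isR`, `tl_prC`.
-/

set_option autoImplicit false
set_option linter.unusedSectionVars false

noncomputable section

namespace Crest.Agent.X262.Emb87

open Polynomial Crest.Agent.X262.Bub96 Crest.Agent.X262.Bub96.Tr Crest.Agent.X262.Vb
open Crest.Agent.X262.Tree87 Crest.Agent.X262.Emb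

theorem propStmt : PropStmt := by
  intro J _ _ io _ _ I E E' _ _ _ _ _ d N z β j ⟨k, _, _, _, ⟨D⟩⟩ hN s hs hw
  have h1 : (fun x : io j × I => s x.1 x.2) ∈
      mapS β (Submodule.span E (Set.range fun (_ : Unit) (x : io j × I) => z.y x.2 j x.1)) := by
    refine (mem_mapS_iff β).2 fun l hl => ?_
    obtain ⟨μ, hμ⟩ := D.prop (η := fun a : io j => MvPolynomial.X ⟨j, a⟩) (fun a => mh_X ⟨j, a⟩)
      (fun x => by simpa [pv] using D.ok.ev_ne x j)
      (fun i => le_trans (by rw [Pi.single_apply]; split_ifs <;> simp) hN)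
      (fun a => (mem_mapS_iff β).1 (hs a) l hl) fun q a b => by
        simp only [pv, MvPolynomial.aeval_X]
        rw [mul_comm, ← hl, mul_comm (β _), hw, mul_comm, hl, mul_comm]
    refine (Submodule.mem_span_range_iff_exists_fun E).2 ⟨fun _ => μ, funext fun x => ?_⟩
    simpa [pv] using (hμ x.1 x.2).symm
  rw [mapS_span] at h1
  obtain ⟨μ, hμ⟩ := (Submodule.mem_span_range_iff_exists_fun E').1 h1
  exact ⟨μ (), fun a q => by simpa using (congrFun hμ (a, q)).symm⟩

variable {J : Type} [Fintype J] [DecidableEq J] {io : Option J → Type} [∀ j, Fintype (io j)]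
  [∀ j, DecidableEq (io j)] {A A' I : Type} [Fintype A] [Fintype A'] [Fintype I]
  {E : Type} [Field E] [Algebra ℂ E] {T : Tgt (bs io) A} {T' : Tgt io A'} {d : J → ℕ}

theorem pv_upq (y : Pnt io E) (q : MvPolynomial (Vr (bs io)) ℂ) : pv y (upq q) = pv (prP y) q :=
  MvPolynomial.aeval_rename _ _ q

theorem pderiv_upq_some (v : Vr (bs io)) (q : MvPolynomial (Vr (bs io)) ℂ) :
    MvPolynomial.pderiv (⟨some v.1, v.2⟩ : Vr io) (upq q) = upq (MvPolynomial.pderiv v q) :=
  MvPolynomial.pderiv_rename (f := fun v : Vr (bs io) => (⟨some v.1, v.2⟩ : Vr io))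
    (by rintro ⟨j, i⟩ ⟨j', i'⟩ h; cases h; rfl) v q

theorem pderiv_upq_none (i : io none) (q : MvPolynomial (Vr (bs io)) ℂ) :
    MvPolynomial.pderiv (⟨none, i⟩ : Vr io) (upq q) = 0 := by
  classical
  refine MvPolynomial.pderiv_eq_zero_of_notMem_vars fun h => ?_
  obtain ⟨v, -, hv⟩ := Finset.mem_image.1 (MvPolynomial.vars_rename _ _ h)
  cases hv

theorem mh_upq {q : MvPolynomial (Vr (bs io)) ℂ} {κ : J → ℕ} (h : MH q κ) :
    MH (upq (io := io) q) (exd κ 0) := by
  intro s hs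
  obtain ⟨u, rfl, hu⟩ := MvPolynomial.coeff_rename_ne_zero _ _ _ hs
  rw [← h hu, Finsupp.weight_apply, Finsupp.weight_apply,
    Finsupp.sum_mapDomain_index (by simp) (by simp [add_smul]), Finsupp.sum, Finsupp.sum]
  funext j
  cases j <;> simp [exd, Finset.sum_apply, Pi.single_apply]

theorem exists_isR (h : ∀ a, upq (T.F a) ∈ Ideal.span (Set.range T'.F)) : ∃ r, IsR T T' r := by
  choose r h1 h2 using fun a =>
    exists_mz (fun b => MZ.of_MH (T'.hom b)) (MZ.of_MH (mh_upq (T.hom a))) (h a)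
  exact ⟨r, h1, h2⟩

theorem dot_exd (κ : J → ℕ) (d : Option J → ℕ) : dot (exd κ 0) d = dot κ fun j => d (some j) := by
  simp [dot, exd, Fintype.sum_option]

theorem tl_prC {n N : ℕ} {z : Cfg io I E} (h : TL (exd d n) N z) : TL d N (prC z) := by
  obtain ⟨k, _, _, _, ⟨D⟩⟩ := h
  exact ⟨k, _, _, ‹_›, ⟨D.prj (g := some) (fun κ => exd κ 0) (fun _ => rfl) (fun _ => rfl)
    (fun κ hκ j => by cases j; exacts [Nat.zero_le _, hκ _]) dot_exd
    fun κ c => by simp [exd, Fintype.prod_option]⟩⟩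

section pt

variable {y : Pnt io E}

theorem pv_span (hO : T'.On y) {q : MvPolynomial (Vr io) ℂ}
    (h : q ∈ Ideal.span (Set.range T'.F)) : pv y q = 0 := by
  obtain ⟨r, rfl⟩ := Ideal.mem_span_range_iff_exists_fun.1 h
  simp only [pv, map_sum, map_mul]
  exact Finset.sum_eq_zero fun b _ => mul_eq_zero_of_right _ (hO b)

theorem pv_pderiv_sum (hO : T'.On y) (r : A' → MvPolynomial (Vr io) ℂ) (v : Vr io) :
    pv y (MvPolynomial.pderiv v (∑ b, r b * T'.F b)) =
      ∑ b, pv y (r b) * pv y (MvPolynomial.pderiv v (T'.F b)) := by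
  simp only [map_sum, Derivation.leibniz, smul_eq_mul, pv, map_add, map_mul]
  refine Finset.sum_congr rfl fun b _ => ?_
  rw [show MvPolynomial.aeval (fun v : Vr io => y v.1 v.2) (T'.F b) = 0 from hO b, zero_mul,
    add_zero]

theorem sum_exP (f : Vr io → E) (u : Pnt (bs io) E) (w : io none → E) :
    ∑ v, f v * exP u w v.1 v.2 =
      ∑ i, f ⟨none, i⟩ * w i + ∑ v : Vr (bs io), f ⟨some v.1, v.2⟩ * u v.1 v.2 := by
  rw [Fintype.sum_sigma, Fintype.sum_option, Fintype.sum_sigma]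
  rfl

theorem exP_eta (u : Vr io → E) (v : Vr io) :
    exP (io := io) (fun j i => u ⟨some j, i⟩) (fun i => u ⟨none, i⟩) v.1 v.2 = u v := by
  rcases v with ⟨_ | j, i⟩ <;> rfl

variable {r : A → A' → MvPolynomial (Vr io) ℂ}

theorem pM_r (hr : IsR T T' r) (hO : T'.On y) (a : A) (v : Vr io) :
    pM (mm r (jacP T')) y a v = pv y (MvPolynomial.pderiv v (upq (T.F a))) := by
  rw [hr.2, pv_pderiv_sum hO, pM_mm]; rfl

theorem mulVec_r (hr : IsR T T' r) (hO : T'.On y) (u : Pnt (bs io) E) (w : io none → E) :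
    (pM (mm r (jacP T')) y).mulVec (fun v => exP u w v.1 v.2) =
      (pM (jacP T) (prP y)).mulVec fun v => u v.1 v.2 := by
  funext a
  refine (sum_exP _ u w).trans ?_
  simp only [pM_r hr hO, pderiv_upq_none, pderiv_upq_some, pv_upq]
  simp [pv, Matrix.mulVec, dotProduct, pM, jacP]

theorem pR_r (hr : IsR T T' r) (hO : T'.On y) : pR (mm r (jacP T')) y = T.Nm (prP y) := by
  rw [Nm_eq]
  apply le_antisymm
  · rintro _ ⟨u, rfl⟩
    refine ⟨_, (mulVec_r hr hO (fun j i => u ⟨some j, i⟩) fun i => u ⟨none, i⟩).symm.trans ?_⟩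
    simp only [exP_eta]; rfl
  · rintro _ ⟨u, rfl⟩
    exact ⟨_, mulVec_r hr hO (fun j i => u ⟨j, i⟩) 0⟩

theorem mulVec_jac0 (y : Pnt io E) (w : io none → E) :
    (pM (jacP T') y).mulVec (fun v => exP 0 w v.1 v.2) = (pM (jac0 T') y).mulVec w := by
  funext a
  refine (sum_exP _ 0 w).trans ?_
  simp [Matrix.mulVec, dotProduct, pM, jacP, jac0]

theorem pv_sub (y : Pnt io E) (q q' : MvPolynomial (Vr io) ℂ) : pv y (q - q') = pv y q - pv y q' :=
  map_sub _ _ _

theorem sum_pderiv_X (y : Pnt io E) (w : io none → E) (a : io none)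
    (q : MvPolynomial (Vr (bs io)) ℂ) :
    ∑ i, pv y (MvPolynomial.pderiv ⟨none, i⟩ (MvPolynomial.X ⟨none, a⟩ * upq q)) * w i =
      w a * pv (prP y) q := by
  rw [Finset.sum_eq_single a (fun i _ hi => ?_) (by simp)]
  · rw [Derivation.leibniz, pderiv_upq_none, MvPolynomial.pderiv_X_self, ← pv_upq, mul_comm]
    simp
  · rw [Derivation.leibniz, pderiv_upq_none, MvPolynomial.pderiv_X_of_ne (by simpa using hi.symm)]
    simp [pv]

theorem pK_jac0 (G : Gr T T' d) (hO : T'.On y) (h0 : NZ y) (hq : ∃ l a, pv (prP y) (G.q l a) ≠ 0) :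
    pK (jac0 T') y = pR (col fun i : io none => MvPolynomial.X ⟨none, i⟩) y := by
  obtain ⟨l, hl⟩ := hq
  ext w
  rw [mem_pR_col]
  simp only [pv, MvPolynomial.aeval_X]
  constructor
  · intro hw
    have h1 : ∀ a b, w a * pv (prP y) (G.q l b) = w b * pv (prP y) (G.q l a) := fun a b => by
      obtain ⟨s, hs⟩ := Ideal.mem_span_range_iff_exists_fun.1 (G.idq l a b)
      have h2 : ∑ i, pv y (MvPolynomial.pderiv ⟨none, i⟩ (∑ c, s c * T'.F c)) * w i = 0 := by
        simp only [pv_pderiv_sum hO, Finset.sum_mul, mul_assoc]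
        rw [Finset.sum_comm]
        exact Finset.sum_eq_zero fun c _ => by
          rw [← Finset.mul_sum]; exact mul_eq_zero_of_right _ (mem_pK.1 hw c)
      rw [hs] at h2
      simp only [map_sub, pv_sub, sub_mul, Finset.sum_sub_distrib, sum_pderiv_X] at h2
      exact sub_eq_zero.1 h2
    have h2 : ∀ a b, y none a * pv (prP y) (G.q l b) = y none b * pv (prP y) (G.q l a) :=
      fun a b => by
        have := pv_span hO (G.idq l a b)
        rw [← pv_upq, ← pv_upq]
        simpa [pv, sub_eq_zero] using this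
    obtain ⟨μ, h3⟩ := exists_mul_of_wedge hl h1
    obtain ⟨ν, h4⟩ := exists_mul_of_wedge hl h2
    obtain ⟨i, hi⟩ := h0 none
    have h5 : ν ≠ 0 := fun h => hi (by rw [h4, h, zero_mul])
    exact ⟨μ / ν, fun b => by rw [h3, h4, ← mul_assoc, div_mul_cancel₀ _ h5]⟩
  · rintro ⟨μ, hμ⟩
    have h1 := Node22.jac_euler T' hO (Pi.single none μ)
    change Matrix.mulVec _ w = 0
    rw [← mulVec_jac0, ← h1]
    change _ = Matrix.toLin' _ _
    rw [Matrix.toLin'_apply]
    congr 1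
    funext v
    rcases v with ⟨_ | j, i⟩
    · simp [exP, hμ, Node22.vec]
    · simp [exP]

theorem nz_col (h0 : NZ y) : ∃ b : io none, pv y (MvPolynomial.X ⟨none, b⟩) ≠ 0 := by
  simpa [pv] using h0 none

theorem finrank_jac0 (G : Gr T T' d) (hO : T'.On y) (h0 : NZ y)
    (hq : ∃ l a, pv (prP y) (G.q l a) ≠ 0) :
    Module.finrank E (pR (jac0 T') y) = Fintype.card (io none) - 1 := by
  have := finrank_pR_add_pK (jac0 T') y
  rw [pK_jac0 G hO h0 hq, finrank_pR_col (nz_col h0)] at this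
  omega

theorem ex_jac0 (G : Gr T T' d) (hr : IsR T T' r) (hO : T'.On y) (h0 : NZ y)
    (hq : ∃ l a, pv (prP y) (G.q l a) ≠ 0) {c : ℕ} (h1 : Module.finrank E (T.Nm (prP y)) = c)
    (h2 : Module.finrank E (T'.Nm y) = cp' io c) :
    Ex (jac0 T') (jacP T') r (Fintype.card (io none) - 1) (cp' io c) y := by
  rw [Nm_eq] at h2
  refine ⟨finrank_jac0 G hO h0 hq, h2, (Submodule.eq_of_le_of_finrank_eq ?_ ?_).symm⟩
  · rintro _ ⟨w, rfl⟩
    refine ⟨⟨_, mulVec_jac0 y w⟩, ?_⟩
    change Matrix.mulVec _ (Matrix.mulVec _ w) = 0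
    rw [← mulVec_jac0, Matrix.mulVec_mulVec, ← pM_mm, mulVec_r hr hO]
    exact Matrix.mulVec_zero _
  · have h3 := finrank_map_add_inf (pM r y).mulVecLin (pR (jacP T') y)
    rw [← pR_mm, pR_r hr hO, h1, h2, cp'] at h3
    rw [finrank_jac0 G hO h0 hq]
    exact (Nat.add_left_cancel h3).symm

end pt

theorem hz_jac0 (T' : Tgt io A') : HZ T'.k (fun _ => Pi.single none 1) (jac0 T') :=
  fun a i => hz_jac T' a ⟨none, i⟩

section tree

variable {k : Type} [Field k] [Algebra ℂ k] [IsAlgClosed k] {t : Tr k (Option J) io} {n : ℕ}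

theorem on_prT (G : Gr T T' d) (hO : ∀ x, T'.On (t.ev x)) (x : (prT some t).Pt) :
    T.On ((prT some t).ev x) := fun a => by
  obtain ⟨y, rfl⟩ := exists_pt some t x
  rw [ev_prT]
  exact (pv_upq (t.ev y) (T.F a)).symm.trans (pv_span (hO y) (G.idF a))

theorem cov (G : Gr T T' d) (ht : t.OK) (hd : t.deg = exd d n) (hO : ∀ x, T'.On (t.ev x))
    (x : t.Pt) : ∃ l a, pv (prP (t.ev x)) (G.q l a) ≠ 0 := by
  have := G.cov k _ (ok_prT some ht) (by rw [deg_prT, hd]; rfl) (on_prT G hO) (prE some t x.1, x.2)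
  rwa [ev_prT] at this

theorem deg_le (G : Gr T T' d) (ht : t.OK) (hd : t.deg = exd d n) (hO : ∀ x, T'.On (t.ev x)) :
    n ≤ ∑ l, dot (G.m l) d := by
  have h1 : ∀ v, t.vd v none ≤ ∑ l, dot (G.m l) fun j => t.vd v (some j) := fun v => by
    obtain ⟨l, a, h⟩ := cov G ht hd hO (v, none)
    refine le_trans ?_ (Finset.single_le_sum (f := fun l => dot (G.m l) fun j => t.vd v (some j))
      (fun _ _ => Nat.zero_le _) (Finset.mem_univ l))
    have h2 := fun b => (MZ.of_MH (G.hom l b)).sb (d := fun j => t.vd v (some j))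
      (g := fun j => t.vg v (some j)) fun j => ht.natDegree_le v (some j)
    have h3 := le_of_prop (fun b => DL_nat.2 (ht.natDegree_le v none b)) (fun b => (h2 b).1)
      (fun p => by simp only [ev_eq_hv]; exact ht.ev_ne (v, p) none) (fun p a b => by
        have := pv_span (hO (v, p)) (G.idq l b a)
        simp only [pv, map_sub, map_mul, MvPolynomial.aeval_X, sub_eq_zero] at this
        rw [(h2 _).2, (h2 _).2, ev_eq_hv, ev_eq_hv, mul_comm, mul_comm (pv _ _)]
        exact (congrArg (_ * ·) (pv_upq (t.ev (v, p)) _).symm).trans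
          (this.trans (congrArg (_ * ·) (pv_upq (t.ev (v, p)) _))))
      fun h4 => h (by
        have h5 := (h2 a).2 none
        rw [show sb _ (G.q l a) = 0 from congrFun h4 a, map_zero] at h5
        exact h5.symm)
    unfold dot
    exact_mod_cast h3
  calc n = ∑ v, t.vd v none := by rw [sum_vd, hd]; rfl
    _ ≤ ∑ v, ∑ l, dot (G.m l) fun j => t.vd v (some j) := Finset.sum_le_sum fun v _ => h1 v
    _ = _ := by
      rw [Finset.sum_comm]
      refine Finset.sum_congr rfl fun l _ => ?_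
      simp only [← dot_exd]
      rw [sum_dot_vd, hd, dot_exd]; rfl

end tree

theorem bndStmt : BndStmt := by
  intro J _ _ io _ _ A A' _ _ T T' d G
  refine ⟨∑ l, dot (G.m l) d, fun n N z hN ⟨k, _, _, _, ⟨D⟩⟩ hO =>
    ⟨deg_le G D.ok D.deg (D.on hN hO), fun q => ?_⟩⟩
  obtain ⟨l, a, h⟩ := cov G D.ok D.deg (D.on hN hO) (D.sp q)
  refine ⟨l, a, fun h1 => h ?_⟩
  rw [← pv_upq, D.ev_sp, (MZ.of_MH (mh_upq (G.hom l a))).pv_scl (D.c_ne q), Tree87.pv_map, pv_upq,
    h1, map_zero, mul_zero]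

theorem exactStmt : ExactStmt := by
  intro J _ _ io _ _ A A' _ _ T T' d G r c n hr ⟨_, S, hS⟩ ⟨_, S', hS'⟩
  obtain ⟨N₁, h1⟩ := exists_bnd T'.k (Fintype.card A' + 1)
  obtain ⟨N₂, h2⟩ := exists_bnd (fun a => exd (T.k a) 0) (Fintype.card A' + 1)
  obtain ⟨N₃, h3⟩ := exists_bnd T'.k (Fintype.card (io none) + 1)
  refine ⟨N₁ + N₂ + N₃ + Fintype.card (io none) + 2, fun N z hN ⟨k, _, _, _, ⟨D⟩⟩ hO => ?_⟩
  have h4 := D.on (fun a j => le_of_succ_mul (h1 N (by omega) a j)) hO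
  have h5 := cov G D.ok D.deg h4
  have e : ∀ x, Ex (jac0 T') (jacP T') r _ _ (D.t.ev x) := fun x =>
    ex_jac0 G hr (h4 x) (nz_ev _ D.ok x) (h5 x) (by
      have := (hS k _ (ok_prT some D.ok) (by rw [deg_prT, D.deg]; rfl) (on_prT G h4)
        (prE some D.t x.1, x.2)).1
      rwa [ev_prT] at this) (hS' k _ D.ok D.deg h4 x).1
  obtain ⟨h6, h7⟩ := D.ses (hz_jac T') (hz_jac0 T') hr.1 e (h1 N (by omega)) (h2 N (by omega))
  have hb : ∀ (m : ℕ) (j : Option J), m ≤ N → m * (Pi.single none 1 : Option J → ℕ) j ≤ N :=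
    fun m j hm => le_trans (by rw [Pi.single_apply]; split_ifs <;> simp) hm
  have h8 := (D.lift (hz_col (fun i : io none => mh_X ⟨none, i⟩) (zero_add _)) (hz_jac0 T')
    (fun x => finrank_pR_col (nz_col (nz_ev _ D.ok x)))
    (fun x => pK_jac0 G (h4 x) (nz_ev _ D.ok x) (h5 x)) (fun _ j => hb _ j (by omega))
    (h3 N (by omega))).2.2
  rw [(D.Rb_col (fun i : io none => mh_X ⟨none, i⟩) (zero_add _)
    (fun x => nz_col (nz_ev _ D.ok x)) fun j => hb _ j (by omega)).2] at h8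
  rw [Eb_eq]
  refine ⟨h6.trans ?_, h7, ?_, fun q => (D.finrank_pR (hz_jac0 T') q).symm.trans (e _).r1⟩
  · ext σ
    rw [Eb_eq, mem_Rb, mem_Rb]
    simp only [pR_r hr (hO _), Nm_eq]
    rfl
  · simp only [dot_single, Finset.sum_const, Finset.card_univ, smul_eq_mul] at h8
    have h9 : dot 0 (exd d n) = 0 := by simp [dot]
    rw [h9] at h8
    exact Nat.eq_sub_of_add_eq h8

end Crest.Agent.X262.Emb87
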